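import Vale.Agent.P092.H931.Delta
import Vale.Agent.P092.SR.Defs

/-!
The dual frame and the transport between the `Γ`-basis (`ℓ²(Γ × Γ)`, `ρ`, `V`) and the `Λ`-basis
(`ℓ²(Λ × Λ)`, `RR₁ α`, `RR₂ α`, `VV α` of `SR/Defs`).
-/

set_option linter.all false

open scoped InnerProductSpace
open Filter Topology ContinuousLinearMap

namespace Vale.Agent.P092.H931

open Vale.Agent.P092.H160

variable {Γ Λ : Type} [Group Γ] [Group Λ] {α : Γ →* (Ell2 Λ →L[ℂ] Ell2 Λ)}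

theorem W_one (hα : Frame α) : W hα (dl 1) = dl 1 := by
  rw [W_dl, map_one]; rfl

theorem W_rho (hα : Frame α) (g : Γ) (v : Ell2 Γ) : W hα (rho g v) = Rr hα g (W hα v) := by
  rw [Rr_apply, adjW_W_apply]

theorem adjW_Rr (hα : Frame α) (g : Γ) (v : Ell2 Λ) :
    adjoint (W hα) (Rr hα g v) = rho g (adjoint (W hα) v) := by
  rw [Rr_apply, adjW_W_apply]

/-- The dual frame `β_s = W* λ_s W`, `W δ_g = α_g δ_1`. -/
noncomputable def dual (hα : Frame α) : Λ →* (Ell2 Γ →L[ℂ] Ell2 Γ) where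
  toFun s := adjoint (W hα) ∘L lam s ∘L W hα
  map_one' := by
    rw [lam_one]
    exact adjW_W hα
  map_mul' s t := by
    ext1 v
    change adjoint (W hα) (lam (s * t) (W hα v)) =
      adjoint (W hα) (lam s (W hα (adjoint (W hα) (lam t (W hα v)))))
    rw [W_adjW_apply, lam_mul]
    rfl

theorem dual_apply (hα : Frame α) (s : Λ) (v : Ell2 Γ) :
    dual hα s v = adjoint (W hα) (lam s (W hα v)) := rfl

theorem dual_dl (hα : Frame α) (s : Λ) : dual hα s (dl 1) = adjoint (W hα) (dl s) := by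
  rw [dual_apply, W_one, lam_dl, mul_one]

theorem dual_adj (hα : Frame α) (s : Λ) : adjoint (dual hα s) = dual hα s⁻¹ := by
  change adjoint (adjoint (W hα) ∘L lam s ∘L W hα) = _
  rw [adjoint_comp, adjoint_comp, adjoint_adjoint, adjoint_lam]
  rfl

/-- The dual frame is a frame. -/
theorem dual_frame (hα : Frame α) : Frame (dual hα) where
  reg :=
    { adj := dual_adj hα
      norm_one := norm_dl 1
      inner_zero := fun s hs => by
        rw [dual_dl, adjoint_inner_right, W_one, inner_dl, dl_ne (Ne.symm hs)]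
      total := fun v hv => by
        have h1 : W hα v = 0 := by
          refine eq_zero_of_inner_dl fun s => ?_
          have h := hv s
          rwa [dual_dl, adjoint_inner_left, inner_dl] at h
        rw [← adjW_W_apply hα v, h1, map_zero] }
  comm s g := by
    ext1 v
    change dual hα s (rho g v) = rho g (dual hα s v)
    have h : lam s (Rr hα g (W hα v)) = Rr hα g (lam s (W hα v)) :=
      congrArg (fun T : Ell2 Λ →L[ℂ] Ell2 Λ => T (W hα v)) (lam_Rr hα s g)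
    rw [dual_apply, dual_apply, W_rho, h, adjW_Rr]

theorem W_dual (hα : Frame α) : W (dual_frame hα) = adjoint (W hα) := by
  apply op_ext
  intro s
  rw [W_dl, dual_dl]

theorem WW_dual (hα : Frame α) : WW (dual_frame hα) = adjoint (WW hα) := by
  rw [WW, WW, W_dual, adjoint_tens]

/-! ### The right translations -/

theorem inv_coord (hα : Frame α) (g : Γ) (y : Λ) :
    (α g⁻¹ (dl 1) : Ell2 Λ) y = (starRingEnd ℂ) ((α g (dl 1) : Ell2 Λ) y⁻¹) := by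
  have h1 : α g (dl y) = rho y⁻¹ (α g (dl 1)) := by
    rw [dl_eq_rho, hα.apply_comm]
  rw [← inner_dl, ← hα.reg.inner_left, h1, inner_dl_right, rho_apply, one_mul]

theorem rei_inv_alpha (hα : Frame α) (g : Γ) :
    rei (Equiv.inv Λ) (α g (dl 1)) = cj (α g⁻¹ (dl 1)) := by
  apply ext_inner_dl
  intro y
  rw [cj_apply, inv_coord hα, Complex.conj_conj]
  rfl

/-- `J α(g) J` is the right multiplication by `α(g)*`. -/
theorem JJ_alpha (hα : Frame α) (g : Γ) : SR.JJ (α g) = Rr hα g := by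
  refine ext_b hα fun h => ?_
  have h2 : ∀ u : Ell2 Λ, rei (Equiv.inv Λ) (cj u) = cj (rei (Equiv.inv Λ) u) := fun u => rfl
  have h3 : rei (Equiv.inv Λ) (rei (Equiv.inv Λ) (α (h * g⁻¹) (dl 1))) = α (h * g⁻¹) (dl 1) :=
    congrArg (fun T : Ell2 Λ →L[ℂ] Ell2 Λ => T (α (h * g⁻¹) (dl 1))) SR.rei_inv_mul
  change rei (Equiv.inv Λ) (bar (α g) (rei (Equiv.inv Λ) (α h (dl 1)))) = _
  rw [Rr_beta, rei_inv_alpha hα, bar_cj, beta_beta]
  have h4 : rei (Equiv.inv Λ) (α (h * g⁻¹) (dl 1)) = cj (α (g * h⁻¹) (dl 1)) := by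
    rw [rei_inv_alpha hα, mul_inv_rev, inv_inv]
  rw [← h3, h4]

theorem RR₁_eq (hα : Frame α) (g : Γ) : SR.RR₁ α g = RR hα (g, 1) := by
  change tens (SR.JJ (α g)) 1 = tens (Rr hα g) (Rr hα 1)
  rw [JJ_alpha hα, map_one]

theorem RR₂_eq (hα : Frame α) (g : Γ) : SR.RR₂ α g = RR hα (1, g) := by
  change tens 1 (SR.JJ (α g)) = tens (Rr hα 1) (Rr hα g)
  rw [JJ_alpha hα, map_one]

/-! ### The transport of operators -/

/-- `T ↦ (W ⊗ W) T (W ⊗ W)*`, `W ⊗ W = WW hα : ℓ²(Γ × Γ) → ℓ²(Λ × Λ)`,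
`W δ_g = α_g δ_1`. -/
noncomputable def tra (hα : Frame α) (T : Ell2 (Γ × Γ) →L[ℂ] Ell2 (Γ × Γ)) :
    Ell2 (Λ × Λ) →L[ℂ] Ell2 (Λ × Λ) := WW hα ∘L T ∘L adjoint (WW hα)

theorem tra_apply (hα : Frame α) (T : Ell2 (Γ × Γ) →L[ℂ] Ell2 (Γ × Γ)) (v : Ell2 (Λ × Λ)) :
    tra hα T v = WW hα (T (adjoint (WW hα) v)) := rfl

theorem tra_WW (hα : Frame α) (T : Ell2 (Γ × Γ) →L[ℂ] Ell2 (Γ × Γ)) (v : Ell2 (Γ × Γ)) :
    tra hα T (WW hα v) = WW hα (T v) := by rw [tra_apply, adjWW_WW_apply]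

theorem tra_mul (hα : Frame α) (S T : Ell2 (Γ × Γ) →L[ℂ] Ell2 (Γ × Γ)) :
    tra hα (S * T) = tra hα S * tra hα T := by
  ext1 v
  rw [mul_ap, tra_apply, tra_apply, tra_apply, adjWW_WW_apply]
  rfl

theorem tra_one (hα : Frame α) : tra hα 1 = 1 := WW_adjWW hα

theorem tra_adj (hα : Frame α) (T : Ell2 (Γ × Γ) →L[ℂ] Ell2 (Γ × Γ)) :
    adjoint (tra hα T) = tra hα (adjoint T) := by
  rw [tra, adjoint_comp, adjoint_comp, adjoint_adjoint]
  rfl

theorem tra_inj (hα : Frame α) {S T : Ell2 (Γ × Γ) →L[ℂ] Ell2 (Γ × Γ)}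
    (h : tra hα S = tra hα T) : S = T := by
  ext1 v
  have h1 : WW hα (S v) = WW hα (T v) := by rw [← tra_WW, h, tra_WW]
  rw [← adjWW_WW_apply hα (S v), h1, adjWW_WW_apply]

theorem tra_zero (hα : Frame α) : tra hα 0 = 0 := by
  ext1 v
  rw [tra_apply]
  simp

theorem tra_ne_zero (hα : Frame α) {T : Ell2 (Γ × Γ) →L[ℂ] Ell2 (Γ × Γ)} (h : T ≠ 0) :
    tra hα T ≠ 0 := fun h1 => h (tra_inj hα (by rw [h1, tra_zero]))

theorem tra_comm (hα : Frame α) {S T : Ell2 (Γ × Γ) →L[ℂ] Ell2 (Γ × Γ)} (h : S * T = T * S) :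
    tra hα S * tra hα T = tra hα T * tra hα S := by
  rw [← tra_mul, h, tra_mul]

theorem tra_pos (hα : Frame α) {T : Ell2 (Γ × Γ) →L[ℂ] Ell2 (Γ × Γ)} (h : 0 ≤ T) :
    0 ≤ tra hα T := by
  rw [ContinuousLinearMap.nonneg_iff_isPositive] at h ⊢
  exact h.conj_adjoint (WW hα)

/-- every operator of `ℓ²(Λ × Λ)` is a transport -/
theorem tra_surj (hα : Frame α) (T : Ell2 (Λ × Λ) →L[ℂ] Ell2 (Λ × Λ)) :
    tra hα (adjoint (WW hα) ∘L T ∘L WW hα) = T := by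
  ext1 v
  rw [tra_apply]
  change WW hα (adjoint (WW hα) (T (WW hα (adjoint (WW hα) v)))) = T v
  rw [WW_adjWW_apply, WW_adjWW_apply]

theorem WW_rho (hα : Frame α) (a b : Γ) (v : Ell2 (Γ × Γ)) :
    WW hα (rho (a, b) v) = SR.RR₁ α a (SR.RR₂ α b (WW hα v)) := by
  have h : WW hα ∘L rho (a, b) = (SR.RR₁ α a * SR.RR₂ α b) ∘L WW hα := by
    rw [RR₁_eq hα, RR₂_eq hα, ← map_mul]
    apply op_ext
    rintro ⟨x, y⟩
    rw [comp_apply, comp_apply, rho_dl, WW_dl, WW_dl, RR_be]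
    congr 1
    ext <;> simp
  exact congrArg (fun T : Ell2 (Γ × Γ) →L[ℂ] Ell2 (Λ × Λ) => T v) h

/-- Transport of the right translations. -/
theorem tra_rho (hα : Frame α) (a b : Γ) :
    tra hα (rho (a, b)) = SR.RR₁ α a * SR.RR₂ α b := by
  ext1 v
  rw [tra_apply, WW_rho, WW_adjWW_apply]
  rfl

theorem tra_rho₁ (hα : Frame α) (a : Γ) : tra hα (rho (a, 1)) = SR.RR₁ α a := by
  rw [tra_rho, map_one, mul_one]

theorem tra_rho₂ (hα : Frame α) (b : Γ) : tra hα (rho (1, b)) = SR.RR₂ α b := by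
  rw [tra_rho, map_one, one_mul]

theorem Y_dual (hα : Frame α) (v : Ell2 (Γ × Γ)) :
    WW hα (Y (dual_frame hα) v) = rei (SR.eW Λ) (WW hα v) := by
  rw [Y, Pm_apply, WW_dual, WW_adjWW_apply, adjoint_adjoint]
  rfl

theorem adjY_dual (hα : Frame α) (v : Ell2 (Γ × Γ)) :
    WW hα (adjoint (Y (dual_frame hα)) v) = rei (SR.eW Λ).symm (WW hα v) := by
  rw [Y, Pm_adj, Pm_apply, WW_dual, WW_adjWW_apply, adjoint_adjoint]
  rfl

/-- Transport of the comultiplication. -/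
theorem WW_V (hα : Frame α) (g : Γ) (v : Ell2 (Γ × Γ)) :
    WW hα (V (dual_frame hα) g v) = SR.VV α g (WW hα v) := by
  have h : WW hα ∘L tens (lam g) 1 = tens (α g) 1 ∘L WW hα := by
    apply op_ext
    rintro ⟨x, y⟩
    rw [comp_apply, comp_apply, tens_dl, WW_tv, W_lam, WW, tens_dl, tens_tv]
    rfl
  have h' : ∀ u, WW hα (tens (lam g) 1 u) = tens (α g) 1 (WW hα u) := fun u =>
    congrArg (fun T : Ell2 (Γ × Γ) →L[ℂ] Ell2 (Λ × Λ) => T u) h
  rw [V_apply, adjY_dual, h', Y_dual]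
  rfl

theorem tra_V (hα : Frame α) (g : Γ) : tra hα (V (dual_frame hα) g) = SR.VV α g := by
  ext1 v
  rw [tra_apply, WW_V, WW_adjWW_apply]

theorem WW_one (hα : Frame α) : WW hα (dl 1) = dl 1 := by
  rw [WW_dl]
  exact be_one

/-! ### The sum form of `V` -/

section sum

variable {β : Λ →* (Ell2 Γ →L[ℂ] Ell2 Γ)}

theorem hasSum_dl_cf (hβ : Frame β) (g : Γ) :
    HasSum (fun r => cf β g r • β r (dl 1)) (dl g) := by
  have h := (hasSum_dl (adjoint (W hβ) (dl g))).mapL (W hβ)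
  rw [W_adjW_apply] at h
  simp only [map_smul, W_dl, ← cf_eq hβ] at h
  exact h

/-- `V_g e(s,t) = ∑_r c_r(g) e(rs, rt)` -/
theorem hasSum_V (hβ : Frame β) (g : Γ) (s t : Λ) :
    HasSum (fun r => cf β g r • be β (r * s, r * t)) (V hβ g (be β (s, t))) := by
  have h1 := ((hasSum_dl_cf hβ g).mapL (Rr hβ s⁻¹)).mapL (Jt hβ (s⁻¹ * t))
  have h2 : Rr hβ s⁻¹ (dl g) = lam g (β s (dl 1)) := by
    have h3 : Rr hβ s⁻¹ (lam g (dl 1)) = lam g (Rr hβ s⁻¹ (dl 1)) :=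
      congrArg (fun T : Ell2 Γ →L[ℂ] Ell2 Γ => T (dl 1)) (lam_Rr hβ g s⁻¹).symm
    rw [lam_dl, mul_one, Rr_one_vec, inv_inv] at h3
    exact h3
  rw [h2, Jt_lam, Jt_beta, mul_inv_cancel_left] at h1
  simp only [map_smul, Rr_beta, Jt_beta, inv_inv] at h1
  have h4 : ∀ r, r * s * (s⁻¹ * t) = r * t := fun r => by group
  simp only [h4] at h1
  exact h1

end sum

end Vale.Agent.P092.H931
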