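import Vale.Agent.P092.H931.Trans
import Vale.Agent.P092.SR.Blocks

/-!
[BR] The unitary `ℓ²(Γ × Γ) → ℓ²(Λ × Λ)` and the transport of `FinN`.
-/

set_option linter.all false

open scoped InnerProductSpace
open Filter Topology ContinuousLinearMap

namespace Vale.Agent.P092.H931

open Vale.Agent.P092.H160

section transport

variable {Γ H H' ℋ ℋ' : Type} [Group Γ] [Group H] [Group H'] [TopologicalSpace H]
  [TopologicalSpace H'] [NormedAddCommGroup ℋ] [InnerProductSpace ℂ ℋ] [CompleteSpace ℋ]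
  [NormedAddCommGroup ℋ'] [InnerProductSpace ℂ ℋ'] [CompleteSpace ℋ']

/-- conjugation of an operator by an isometric isomorphism -/
noncomputable def uc (U : ℋ ≃ₗᵢ[ℂ] ℋ') (x : ℋ →L[ℂ] ℋ) : ℋ' →L[ℂ] ℋ' :=
  (U : ℋ →L[ℂ] ℋ') ∘L x ∘L (U.symm : ℋ' →L[ℂ] ℋ)

theorem uc_apply (U : ℋ ≃ₗᵢ[ℂ] ℋ') (x : ℋ →L[ℂ] ℋ) (v : ℋ') : uc U x v = U (x (U.symm v)) := rfl

theorem uc_U (U : ℋ ≃ₗᵢ[ℂ] ℋ') (x : ℋ →L[ℂ] ℋ) (v : ℋ) : uc U x (U v) = U (x v) := by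
  rw [uc_apply, LinearIsometryEquiv.symm_apply_apply]

theorem uc_comm (U : ℋ ≃ₗᵢ[ℂ] ℋ') {x a : ℋ →L[ℂ] ℋ} {a' : ℋ' →L[ℂ] ℋ'}
    (ha : ∀ v, U (a v) = a' (U v)) (h : x * a = a * x) : uc U x * a' = a' * uc U x := by
  ext1 v
  obtain ⟨u, rfl⟩ := U.surjective v
  have h1 : x (a u) = a (x u) := congrArg (fun T : ℋ →L[ℂ] ℋ => T u) h
  change uc U x (a' (U u)) = a' (uc U x (U u))
  rw [← ha, uc_U, uc_U, h1, ha]

theorem uc_pos (U : ℋ ≃ₗᵢ[ℂ] ℋ') {x : ℋ →L[ℂ] ℋ} (h : 0 ≤ x) : 0 ≤ uc U x := by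
  rw [ContinuousLinearMap.nonneg_iff_isPositive] at h ⊢
  have h1 := h.conj_adjoint (U : ℋ →L[ℂ] ℋ')
  have h2 : adjoint (U : ℋ →L[ℂ] ℋ') = (U.symm : ℋ' →L[ℂ] ℋ) := by
    rw [eq_comm, ContinuousLinearMap.eq_adjoint_iff]
    intro u v
    change ⟪U.symm u, v⟫_ℂ = ⟪u, U v⟫_ℂ
    rw [← LinearIsometryEquiv.inner_map_map U, LinearIsometryEquiv.apply_symm_apply]
  rw [h2] at h1
  exact h1

theorem uc_ne (U : ℋ ≃ₗᵢ[ℂ] ℋ') {x : ℋ →L[ℂ] ℋ} (h : x ≠ 0) : uc U x ≠ 0 := by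
  intro h1
  apply h
  ext1 v
  have h2 : U (x v) = 0 := by rw [← uc_U, h1]; rfl
  have h3 : x v = 0 := by
    have := congrArg U.symm h2
    rwa [LinearIsometryEquiv.symm_apply_apply, map_zero] at this
  rw [h3]; rfl

/-- `FinN` is invariant under isometric isomorphisms. -/
theorem finN_transport (U : ℋ ≃ₗᵢ[ℂ] ℋ') (pr : Γ →* H) (pr' : Γ →* H')
    {S T : Γ →* (ℋ →L[ℂ] ℋ)} {S' T' : Γ →* (ℋ' →L[ℂ] ℋ')} {sc : Set (ℋ →L[ℂ] ℋ)}
    {sc' : Set (ℋ' →L[ℂ] ℋ')} (hS : ∀ g v, U (S g v) = S' g (U v))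
    (hT : ∀ g v, U (T g v) = T' g (U v))
    (hsc : ∀ a' ∈ sc', ∃ a ∈ sc, ∀ v, U (a v) = a' (U v)) (h : SR.FinN pr pr' S T sc) :
    SR.FinN pr pr' S' T' sc' := by
  obtain ⟨K', K, hK', hK, x, ⟨h1, h2, h3⟩, h0, hne, ζ, hζ, hs⟩ := h
  refine ⟨K', K, hK', hK, uc U x, ⟨fun g hg => uc_comm U (hS g) (h1 g hg),
    fun g hg => uc_comm U (hT g) (h2 g hg), fun a' ha' => ?_⟩, uc_pos U h0, uc_ne U hne, U ζ,
    fun h4 => hζ ?_, ?_⟩
  · obtain ⟨a, ha, hU⟩ := hsc a' ha'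
    exact uc_comm U hU (h3 a ha)
  · have := congrArg U.symm h4
    rwa [LinearIsometryEquiv.symm_apply_apply, map_zero] at this
  · refine hs.congr fun q => ?_
    rw [← hT, uc_U, LinearIsometryEquiv.inner_map_map]

end transport

variable {Γ Λ : Type} [Group Γ] [Group Λ] {α : Γ →* (Ell2 Λ →L[ℂ] Ell2 Λ)}

/-- `W ⊗ W` as an isometric isomorphism. -/
noncomputable def UU (hα : Frame α) : Ell2 (Γ × Γ) ≃ₗᵢ[ℂ] Ell2 (Λ × Λ) where
  toFun := WW hα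
  invFun := adjoint (WW hα)
  map_add' := map_add _
  map_smul' := map_smul _
  left_inv := adjWW_WW_apply hα
  right_inv := WW_adjWW_apply hα
  norm_map' := norm_WW hα

theorem UU_apply (hα : Frame α) (v : Ell2 (Γ × Γ)) : UU hα v = WW hα v := rfl

/-- **[BR]** -/
theorem br {α : Γ →* (Ell2 Λ →L[ℂ] Ell2 Λ)} (hα : Frame α) :
    ∃ (β : Λ →* (Ell2 Γ →L[ℂ] Ell2 Γ)) (hβ : Frame β) (U : Ell2 (Γ × Γ) ≃ₗᵢ[ℂ] Ell2 (Λ × Λ)),
      (∀ g v, U (V hβ g v) = SR.VV α g (U v)) ∧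
      (∀ g v, U (rho (g, (1 : Γ)) v) = SR.RR₁ α g (U v)) ∧
      (∀ g v, U (rho ((1 : Γ), g) v) = SR.RR₂ α g (U v)) ∧ U (dl 1) = dl 1 := by
  refine ⟨dual hα, dual_frame hα, UU hα, fun g v => WW_V hα g v, fun g v => ?_, fun g v => ?_,
    WW_one hα⟩
  · rw [UU_apply, WW_rho, map_one]; rfl
  · rw [UU_apply, WW_rho, map_one]; rfl

/-- From the `Γ`-basis to the letters of `SR`: a nonzero `T` commuting with `V g` for
`pr g ∈ K'`, with `ρ(a, b)` for `pr' a ∈ K`, with `∑ ‖T ρ(q⁻¹, 1) δ_1‖² < ∞`. -/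
theorem fin_of_beta {H H' : Type} [Group H] [Group H'] [TopologicalSpace H] [TopologicalSpace H']
    (hα : Frame α) (pr : Γ →* H) (pr' : Γ →* H') (K' : Subgroup H) (K : Subgroup H')
    (hK' : SR.COS K') (hK : SR.COS K) (T : Ell2 (Γ × Γ) →L[ℂ] Ell2 (Γ × Γ)) (hT : T ≠ 0)
    (h1 : ∀ g, pr g ∈ K' → T * V (dual_frame hα) g = V (dual_frame hα) g * T)
    (h2 : ∀ a b, pr' a ∈ K → T * rho (a, b) = rho (a, b) * T)
    (h3 : Summable fun q : Γ ⧸ K.comap pr' => ‖T (rho ((q.out)⁻¹, (1 : Γ)) (dl 1))‖ ^ 2) :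
    SR.FinN pr pr' (SR.VV α) (SR.RR₁ α) (Set.range (SR.RR₂ α)) := by
  have hadj : ∀ {X : Ell2 (Γ × Γ) →L[ℂ] Ell2 (Γ × Γ)} {Y Y' : Ell2 (Γ × Γ) →L[ℂ] Ell2 (Γ × Γ)},
      adjoint Y = Y' → X * Y' = Y' * X → adjoint X * Y = Y * adjoint X := by
    intro X Y Y' hY h
    have h4 := congrArg adjoint h
    rw [← star_eq_adjoint, ← star_eq_adjoint, star_mul, star_mul, star_eq_adjoint,
      star_eq_adjoint, ← hY, adjoint_adjoint] at h4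
    exact h4.symm
  have hU := br hα
  set x := adjoint T * T with hx
  have hxV : ∀ g, pr g ∈ K' → x * V (dual_frame hα) g = V (dual_frame hα) g * x := by
    intro g hg
    have h4 := hadj (V_adj (dual_frame hα) g) (h1 g⁻¹ (by rw [map_inv]; exact K'.inv_mem hg))
    rw [hx, mul_assoc, h1 g hg, ← mul_assoc, h4, mul_assoc]
  have hxR : ∀ a b, pr' a ∈ K → x * rho (a, b) = rho (a, b) * x := by
    intro a b ha
    have h4 := hadj (adjoint_rho (a, b)) (h2 a⁻¹ b⁻¹ (by rw [map_inv]; exact K.inv_mem ha))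
    rw [hx, mul_assoc, h2 a b ha, ← mul_assoc, h4, mul_assoc]
  refine finN_transport (S := V (dual_frame hα)) (T := rhoH.comp (MonoidHom.inl Γ Γ))
    (sc := Set.range (rhoH.comp (MonoidHom.inr Γ Γ))) (UU hα) pr pr'
    (fun g v => WW_V hα g v) (fun g v => ?_) ?_ ⟨K', K, hK', hK, x, ⟨hxV, fun g hg => hxR g 1 hg,
      ?_⟩, ?_, ?_, dl 1, ?_, ?_⟩
  · change WW hα (rho (g, 1) v) = _
    rw [WW_rho, map_one]; rfl
  · rintro _ ⟨g, rfl⟩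
    refine ⟨_, ⟨g, rfl⟩, fun v => ?_⟩
    change WW hα (rho (1, g) v) = _
    rw [WW_rho, map_one]; rfl
  · rintro _ ⟨g, rfl⟩
    exact hxR 1 g (by rw [map_one]; exact K.one_mem)
  · rw [ContinuousLinearMap.nonneg_iff_isPositive]
    exact ContinuousLinearMap.isPositive_adjoint_comp_self T
  · intro h4
    apply hT
    ext1 v
    have h5 : ⟪v, x v⟫_ℂ = 0 := by rw [h4]; simp
    rw [hx, mul_ap, adjoint_inner_right, inner_self_eq_zero] at h5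
    rw [h5]; rfl
  · intro h4
    have h5 := norm_dl (1 : Γ × Γ)
    rw [h4, norm_zero] at h5
    exact zero_ne_one h5
  · refine h3.congr fun q => ?_
    change ‖_‖ ^ 2 = (⟪rho ((q.out)⁻¹, (1 : Γ)) (dl 1),
      x (rho ((q.out)⁻¹, (1 : Γ)) (dl 1))⟫_ℂ).re
    rw [hx, mul_ap, adjoint_inner_right, inner_self_eq_norm_sq_to_K]
    norm_cast

end Vale.Agent.P092.H931
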