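import Vale.Agent.P092.H160.Mult

/-!
The comultiplication `Δ : L(Γ) → L(Γ) ⊗ L(Γ)`, `Δ(β_s) = β_s ⊗ β_s`, attached to a frame
`β : Λ → L(Γ)`, as a unitary representation `V` of `Γ` on `ℓ²(Γ × Γ)`, `V_g = Δ(u_g)`.
-/

set_option linter.all false

open scoped InnerProductSpace
open Filter Topology ContinuousLinearMap

namespace Vale.Agent.P092.H931

open Vale.Agent.P092.H160

variable {Γ Λ : Type} [Group Γ] [Group Λ] {β : Λ →* (Ell2 Γ →L[ℂ] Ell2 Γ)}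

/-! ### The unitary `W : ℓ²(Λ) → ℓ²(Γ)` -/

/-- The unitary `δ_s ↦ β_s δ_1`. -/
noncomputable def W (hβ : Frame β) : Ell2 Λ →L[ℂ] Ell2 Γ :=
  opOf (bes_of_orthonormal hβ.reg.orthonormal)

theorem W_dl (hβ : Frame β) (s : Λ) : W hβ (dl s) = β s (dl 1) := opOf_dl _ _

theorem adjW_W (hβ : Frame β) : adjoint (W hβ) ∘L W hβ = ContinuousLinearMap.id ℂ _ :=
  opOf_isometry hβ.reg.orthonormal

theorem adjW_W_apply (hβ : Frame β) (v : Ell2 Λ) : adjoint (W hβ) (W hβ v) = v :=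
  congrArg (fun T : Ell2 Λ →L[ℂ] Ell2 Λ => T v) (adjW_W hβ)

theorem adjW_beta (hβ : Frame β) (s : Λ) : adjoint (W hβ) (β s (dl 1)) = dl s := by
  rw [← W_dl hβ, adjW_W_apply]

theorem W_adjW (hβ : Frame β) : W hβ ∘L adjoint (W hβ) = ContinuousLinearMap.id ℂ _ := by
  refine hβ.reg.ext_op fun s => ?_
  rw [comp_apply, adjW_beta, W_dl]
  rfl

theorem W_adjW_apply (hβ : Frame β) (v : Ell2 Γ) : W hβ (adjoint (W hβ) v) = v :=
  congrArg (fun T : Ell2 Γ →L[ℂ] Ell2 Γ => T v) (W_adjW hβ)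

theorem norm_W (hβ : Frame β) (v : Ell2 Λ) : ‖W hβ v‖ = ‖v‖ := norm_of_adj_comp (adjW_W hβ) v

theorem inner_W (hβ : Frame β) (u v : Ell2 Λ) : ⟪W hβ u, W hβ v⟫_ℂ = ⟪u, v⟫_ℂ := by
  rw [← adjoint_inner_right, adjW_W_apply]

theorem W_lam (hβ : Frame β) (s : Λ) (v : Ell2 Λ) : W hβ (lam s v) = β s (W hβ v) := by
  have h : W hβ ∘L lam s = β s ∘L W hβ := by
    apply op_ext
    intro t
    rw [comp_apply, comp_apply, lam_dl, W_dl, W_dl, map_mul]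
    rfl
  exact congrArg (fun T : Ell2 Λ →L[ℂ] Ell2 Γ => T v) h

/-- The coefficient `c_s(g) = ⟪β_s δ_1, δ_g⟫` of `u_g = ∑ c_s(g) β_s`. -/
noncomputable def cf (β : Λ →* (Ell2 Γ →L[ℂ] Ell2 Γ)) (g : Γ) (s : Λ) : ℂ :=
  ⟪β s (dl 1), dl g⟫_ℂ

theorem cf_eq (hβ : Frame β) (g : Γ) (s : Λ) : cf β g s = adjoint (W hβ) (dl g) s := by
  rw [cf, ← W_dl hβ, ← adjoint_inner_right, inner_dl]

/-! ### The right regular representation of `Λ` -/

/-- Right multiplication by `β_c*`: `β_s δ_1 ↦ β_{s c⁻¹} δ_1`. -/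
noncomputable def Rr (hβ : Frame β) : Λ →* (Ell2 Γ →L[ℂ] Ell2 Γ) where
  toFun c := W hβ ∘L rho c ∘L adjoint (W hβ)
  map_one' := by
    rw [rho_one]
    exact W_adjW hβ
  map_mul' c d := by
    ext1 v
    change W hβ (rho (c * d) (adjoint (W hβ) v)) =
      W hβ (rho c (adjoint (W hβ) (W hβ (rho d (adjoint (W hβ) v)))))
    rw [adjW_W_apply, rho_mul]
    rfl

theorem Rr_apply (hβ : Frame β) (c : Λ) (v : Ell2 Γ) :
    Rr hβ c v = W hβ (rho c (adjoint (W hβ) v)) := rfl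

theorem Rr_beta (hβ : Frame β) (c s : Λ) : Rr hβ c (β s (dl 1)) = β (s * c⁻¹) (dl 1) := by
  rw [Rr_apply, adjW_beta, rho_dl, W_dl]

theorem Rr_one_vec (hβ : Frame β) (c : Λ) : Rr hβ c (dl 1) = β c⁻¹ (dl 1) := by
  have h := Rr_beta hβ c 1
  rw [map_one, one_mul] at h
  exact h

theorem Rr_adj (hβ : Frame β) (c : Λ) : adjoint (Rr hβ c) = Rr hβ c⁻¹ := by
  change adjoint (W hβ ∘L rho c ∘L adjoint (W hβ)) = _
  rw [adjoint_comp, adjoint_comp, adjoint_adjoint, adjoint_rho]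
  rfl

theorem regRep_Rr (hβ : Frame β) : RegRep (Rr hβ) (dl 1) where
  adj := Rr_adj hβ
  norm_one := norm_dl 1
  inner_zero c hc := by
    rw [Rr_one_vec]
    exact hβ.reg.inner_zero _ (inv_ne_one.mpr hc)
  total v hv := by
    refine hβ.reg.total v fun s => ?_
    have h := hv s⁻¹
    rw [Rr_one_vec, inv_inv] at h
    exact h

theorem beta_Rr (hβ : Frame β) (s c : Λ) : β s * Rr hβ c = Rr hβ c * β s := by
  refine hβ.reg.ext_op fun t => ?_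
  have h1 : β s (β t (dl 1)) = β (s * t) (dl 1) := by rw [map_mul]; rfl
  have h2 : β s (β (t * c⁻¹) (dl 1)) = β (s * (t * c⁻¹)) (dl 1) := by rw [map_mul β s]; rfl
  rw [mul_ap, mul_ap, Rr_beta, h1, h2, Rr_beta, mul_assoc]

/-- The operators commuting with `ρ(Γ)` commute with the operators commuting with `β(Λ)`. -/
theorem comm_of (hβ : Frame β) {A B : Ell2 Γ →L[ℂ] Ell2 Γ} (hA : Cmm rhoH A) (hB : Cmm β B) :
    A * B = B * A :=
  RegRep.commute hβ.reg regRep_rho (fun s g => hβ.comm s g) hA hB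

theorem lam_Rr (hβ : Frame β) (g : Γ) (c : Λ) : lam g * Rr hβ c = Rr hβ c * lam g :=
  comm_of hβ (cmm_rho_lam g) (fun s => (beta_Rr hβ s c).symm)

/-! ### The basis `e(s, t)` of `ℓ²(Γ × Γ)` -/

/-- The orthonormal basis `e(s, t) = β_s δ_1 ⊗ β_t δ_1`. -/
noncomputable def be (β : Λ →* (Ell2 Γ →L[ℂ] Ell2 Γ)) (p : Λ × Λ) : Ell2 (Γ × Γ) :=
  tv (β p.1 (dl 1)) (β p.2 (dl 1))

theorem be_one : be β 1 = dl 1 := by
  change tv (β 1 (dl 1)) (β 1 (dl 1)) = dl ((1 : Γ), (1 : Γ))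
  rw [map_one, dl_prod]
  rfl

/-- The unitary `δ_{(s,t)} ↦ e(s,t)`. -/
noncomputable def WW (hβ : Frame β) : Ell2 (Λ × Λ) →L[ℂ] Ell2 (Γ × Γ) := tens (W hβ) (W hβ)

theorem WW_dl (hβ : Frame β) (p : Λ × Λ) : WW hβ (dl p) = be β p := by
  rw [WW, be, tens_dl, W_dl, W_dl]

theorem WW_tv (hβ : Frame β) (u v : Ell2 Λ) : WW hβ (tv u v) = tv (W hβ u) (W hβ v) := by
  rw [WW, tens_tv]

theorem tens_id {X Y : Type} : tens (ContinuousLinearMap.id ℂ (Ell2 X))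
    (ContinuousLinearMap.id ℂ (Ell2 Y)) = ContinuousLinearMap.id ℂ (Ell2 (X × Y)) :=
  tens_one

theorem adjWW_WW (hβ : Frame β) : adjoint (WW hβ) ∘L WW hβ = ContinuousLinearMap.id ℂ _ := by
  rw [WW, adjoint_tens, tens_comp, adjW_W, tens_id]

theorem WW_adjWW (hβ : Frame β) : WW hβ ∘L adjoint (WW hβ) = ContinuousLinearMap.id ℂ _ := by
  rw [WW, adjoint_tens, tens_comp, W_adjW, tens_id]

theorem adjWW_WW_apply (hβ : Frame β) (v : Ell2 (Λ × Λ)) : adjoint (WW hβ) (WW hβ v) = v :=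
  congrArg (fun T : Ell2 (Λ × Λ) →L[ℂ] Ell2 (Λ × Λ) => T v) (adjWW_WW hβ)

theorem WW_adjWW_apply (hβ : Frame β) (v : Ell2 (Γ × Γ)) : WW hβ (adjoint (WW hβ) v) = v :=
  congrArg (fun T : Ell2 (Γ × Γ) →L[ℂ] Ell2 (Γ × Γ) => T v) (WW_adjWW hβ)

theorem adjWW_be (hβ : Frame β) (p : Λ × Λ) : adjoint (WW hβ) (be β p) = dl p := by
  rw [← WW_dl hβ, adjWW_WW_apply]

theorem norm_WW (hβ : Frame β) (v : Ell2 (Λ × Λ)) : ‖WW hβ v‖ = ‖v‖ :=
  norm_of_adj_comp (adjWW_WW hβ) v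

theorem inner_WW (hβ : Frame β) (u v : Ell2 (Λ × Λ)) : ⟪WW hβ u, WW hβ v⟫_ℂ = ⟪u, v⟫_ℂ := by
  rw [← adjoint_inner_right, adjWW_WW_apply]

theorem inner_be (hβ : Frame β) (p : Λ × Λ) (v : Ell2 (Γ × Γ)) :
    ⟪be β p, v⟫_ℂ = adjoint (WW hβ) v p := by
  rw [← WW_dl hβ, ← adjoint_inner_right, inner_dl]

theorem orthonormal_be (hβ : Frame β) : Orthonormal ℂ (be β) := by
  classical
  rw [orthonormal_iff_ite]
  intro p q
  rw [inner_be hβ, adjWW_be, dl_apply]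

section extF

variable {F : Type} [NormedAddCommGroup F] [InnerProductSpace ℂ F]

/-- Operators on `ℓ²(Γ)` are determined by the values on `β_s δ_1`. -/
theorem ext_b (hβ : Frame β) {A B : Ell2 Γ →L[ℂ] F}
    (h : ∀ s, A (β s (dl 1)) = B (β s (dl 1))) : A = B := by
  have h1 : A ∘L W hβ = B ∘L W hβ := by
    apply op_ext
    intro s
    rw [comp_apply, comp_apply, W_dl, h]
  ext1 v
  have h2 := congrArg (fun T : Ell2 Λ →L[ℂ] F => T (adjoint (W hβ) v)) h1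
  simp only [comp_apply, W_adjW_apply] at h2
  exact h2

/-- Operators on `ℓ²(Γ × Γ)` are determined by the values on `e(s,t)`. -/
theorem ext_be (hβ : Frame β) {A B : Ell2 (Γ × Γ) →L[ℂ] F}
    (h : ∀ p, A (be β p) = B (be β p)) : A = B := by
  have h1 : A ∘L WW hβ = B ∘L WW hβ := by
    apply op_ext
    intro s
    rw [comp_apply, comp_apply, WW_dl, h]
  ext1 v
  have h2 := congrArg (fun T : Ell2 (Λ × Λ) →L[ℂ] F => T (adjoint (WW hβ) v)) h1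
  simp only [comp_apply, WW_adjWW_apply] at h2
  exact h2

/-- Operators on `ℓ²(Γ × Γ)` are determined by the values on `β_s δ_1 ⊗ v`. -/
theorem ext_bv (hβ : Frame β) {A B : Ell2 (Γ × Γ) →L[ℂ] F}
    (h : ∀ s v, A (tv (β s (dl 1)) v) = B (tv (β s (dl 1)) v)) : A = B :=
  ext_be hβ fun p => h _ _

end extF

theorem ext_vec_be (hβ : Frame β) {u v : Ell2 (Γ × Γ)} (h : ∀ p, ⟪be β p, u⟫_ℂ = ⟪be β p, v⟫_ℂ) :
    u = v := by
  have h1 : adjoint (WW hβ) u = adjoint (WW hβ) v := by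
    apply ext_inner_dl
    intro p
    rw [← inner_be, ← inner_be, h]
  rw [← WW_adjWW_apply hβ u, h1, WW_adjWW_apply]

theorem hasSum_be (hβ : Frame β) (v : Ell2 (Γ × Γ)) :
    HasSum (fun p => ⟪be β p, v⟫_ℂ • be β p) v := by
  have h := (hasSum_dl (adjoint (WW hβ) v)).mapL (WW hβ)
  rw [WW_adjWW_apply] at h
  refine h.congr_fun ?_
  intro p
  rw [map_smul, WW_dl, inner_be hβ]

/-! ### Operators permuting the basis -/

/-- The unitary `e(p) ↦ e(σ p)`. -/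
noncomputable def Pm (hβ : Frame β) (σ : Equiv.Perm (Λ × Λ)) :
    Ell2 (Γ × Γ) →L[ℂ] Ell2 (Γ × Γ) := WW hβ ∘L rei σ ∘L adjoint (WW hβ)

theorem Pm_apply (hβ : Frame β) (σ : Equiv.Perm (Λ × Λ)) (v : Ell2 (Γ × Γ)) :
    Pm hβ σ v = WW hβ (rei σ (adjoint (WW hβ) v)) := rfl

theorem Pm_be (hβ : Frame β) (σ : Equiv.Perm (Λ × Λ)) (p : Λ × Λ) :
    Pm hβ σ (be β p) = be β (σ p) := by
  rw [Pm_apply, adjWW_be, rei_dl, WW_dl]

theorem Pm_mul (hβ : Frame β) (σ τ : Equiv.Perm (Λ × Λ)) :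
    Pm hβ (σ * τ) = Pm hβ σ * Pm hβ τ := by
  refine ext_be hβ fun p => ?_
  rw [mul_ap, Pm_be, Pm_be, Pm_be]
  rfl

theorem Pm_one (hβ : Frame β) : Pm hβ 1 = 1 := by
  refine ext_be hβ fun p => ?_
  rw [Pm_be]
  rfl

theorem Pm_adj (hβ : Frame β) (σ : Equiv.Perm (Λ × Λ)) : adjoint (Pm hβ σ) = Pm hβ σ⁻¹ := by
  rw [Pm, adjoint_comp, adjoint_comp, adjoint_adjoint, adjoint_rei]
  rfl

theorem adjPm_Pm (hβ : Frame β) (σ : Equiv.Perm (Λ × Λ)) : adjoint (Pm hβ σ) * Pm hβ σ = 1 := by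
  rw [Pm_adj, ← Pm_mul, inv_mul_cancel, Pm_one]

theorem Pm_adjPm (hβ : Frame β) (σ : Equiv.Perm (Λ × Λ)) : Pm hβ σ * adjoint (Pm hβ σ) = 1 := by
  rw [Pm_adj, ← Pm_mul, mul_inv_cancel, Pm_one]

/-! ### The unitary `Y` and the comultiplication -/

/-- `(s, t) ↦ (s, s⁻¹ t)` -/
def eY (Λ : Type) [Group Λ] : Equiv.Perm (Λ × Λ) where
  toFun p := (p.1, p.1⁻¹ * p.2)
  invFun p := (p.1, p.1 * p.2)
  left_inv p := by simp
  right_inv p := by simp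

theorem eY_apply (p : Λ × Λ) : eY Λ p = (p.1, p.1⁻¹ * p.2) := rfl
theorem eY_inv_apply (p : Λ × Λ) : (eY Λ)⁻¹ p = (p.1, p.1 * p.2) := rfl

/-- The unitary `Y e(s,t) = e(s, s⁻¹ t)`. -/
noncomputable def Y (hβ : Frame β) : Ell2 (Γ × Γ) →L[ℂ] Ell2 (Γ × Γ) := Pm hβ (eY Λ)

theorem Y_be (hβ : Frame β) (s t : Λ) : Y hβ (be β (s, t)) = be β (s, s⁻¹ * t) := Pm_be _ _ _

theorem adjY_be (hβ : Frame β) (s t : Λ) : adjoint (Y hβ) (be β (s, t)) = be β (s, s * t) := by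
  rw [Y, Pm_adj, Pm_be, eY_inv_apply]

theorem adjY_Y (hβ : Frame β) : adjoint (Y hβ) * Y hβ = 1 := adjPm_Pm _ _
theorem Y_adjY (hβ : Frame β) : Y hβ * adjoint (Y hβ) = 1 := Pm_adjPm _ _

theorem adjY_Y_apply (hβ : Frame β) (v : Ell2 (Γ × Γ)) : adjoint (Y hβ) (Y hβ v) = v :=
  congrArg (fun T : Ell2 (Γ × Γ) →L[ℂ] Ell2 (Γ × Γ) => T v) (adjY_Y hβ)

theorem Y_adjY_apply (hβ : Frame β) (v : Ell2 (Γ × Γ)) : Y hβ (adjoint (Y hβ) v) = v :=
  congrArg (fun T : Ell2 (Γ × Γ) →L[ℂ] Ell2 (Γ × Γ) => T v) (Y_adjY hβ)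

theorem Y_tv (hβ : Frame β) (s : Λ) (v : Ell2 Γ) :
    Y hβ (tv (β s (dl 1)) v) = tv (β s (dl 1)) (β s⁻¹ v) := by
  have h : Y hβ ∘L tvr (β s (dl 1)) = tvr (β s (dl 1)) ∘L β s⁻¹ := by
    refine ext_b hβ fun t => ?_
    rw [comp_apply, comp_apply, tvr_apply, tvr_apply]
    change Y hβ (be β (s, t)) = _
    rw [Y_be, ← mul_ap, ← map_mul]
    rfl
  exact congrArg (fun T : Ell2 Γ →L[ℂ] Ell2 (Γ × Γ) => T v) h

theorem adjY_tv (hβ : Frame β) (s : Λ) (v : Ell2 Γ) :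
    adjoint (Y hβ) (tv (β s (dl 1)) v) = tv (β s (dl 1)) (β s v) := by
  have h := Y_tv hβ s (β s v)
  rw [hβ.reg.inv_apply] at h
  rw [← h, adjY_Y_apply]

theorem Y_dl_one (hβ : Frame β) : Y hβ (dl 1) = dl 1 := by
  rw [← be_one (β := β)]
  change Y hβ (be β (1, 1)) = be β 1
  rw [Y_be, inv_one, one_mul]
  rfl

theorem adjY_dl_one (hβ : Frame β) : adjoint (Y hβ) (dl 1) = dl 1 := by
  conv_lhs => rw [← Y_dl_one hβ]
  rw [adjY_Y_apply]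

/-- `Y` commutes with the operators `1 ⊗ B`, `B` in the commutant of `β(Λ)`; in particular
with `1 ⊗ ρ(x)` and with `1 ⊗ (right multiplication by β_c*)`. -/
theorem Y_comm_right (hβ : Frame β) {B : Ell2 Γ →L[ℂ] Ell2 Γ} (hB : Cmm β B) :
    Y hβ * tens 1 B = tens 1 B * Y hβ := by
  refine ext_bv hβ fun s v => ?_
  rw [mul_ap, mul_ap, tens_tv, Y_tv, tens_tv, one_apply_eq_self, Y_tv, hB.apply]

theorem Y_rho (hβ : Frame β) (x : Γ) :
    Y hβ * rho ((1 : Γ), x) = rho ((1 : Γ), x) * Y hβ := by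
  have h := Y_comm_right hβ (hβ.cmm_alpha x)
  rw [← rho_one, tens_rho] at h
  exact h

/-- `V_g = Δ(u_g)`. -/
noncomputable def V (hβ : Frame β) : Γ →* (Ell2 (Γ × Γ) →L[ℂ] Ell2 (Γ × Γ)) where
  toFun g := adjoint (Y hβ) * tens (lam g) 1 * Y hβ
  map_one' := by rw [lam_one, tens_one, mul_one, adjY_Y]
  map_mul' g h := by
    have e : tens (lam (g * h)) (1 : Ell2 Γ →L[ℂ] Ell2 Γ) = tens (lam g) 1 * tens (lam h) 1 := by
      rw [← tens_mul, lam_mul, one_mul]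
    rw [e]
    calc adjoint (Y hβ) * (tens (lam g) 1 * tens (lam h) 1) * Y hβ
        = adjoint (Y hβ) * tens (lam g) 1 * 1 * (tens (lam h) 1 * Y hβ) := by
          rw [mul_one]; simp only [mul_assoc]
      _ = adjoint (Y hβ) * tens (lam g) 1 * (Y hβ * adjoint (Y hβ)) *
          (tens (lam h) 1 * Y hβ) := by rw [Y_adjY]
      _ = _ := by simp only [mul_assoc]

theorem V_def (hβ : Frame β) (g : Γ) : V hβ g = adjoint (Y hβ) * tens (lam g) 1 * Y hβ := rfl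

theorem V_apply (hβ : Frame β) (g : Γ) (v : Ell2 (Γ × Γ)) :
    V hβ g v = adjoint (Y hβ) (tens (lam g) 1 (Y hβ v)) := rfl

theorem V_adj (hβ : Frame β) (g : Γ) : adjoint (V hβ g) = V hβ g⁻¹ := by
  rw [V_def, V_def, ← star_eq_adjoint, star_mul, star_mul, star_eq_adjoint, star_eq_adjoint,
    star_eq_adjoint, adjoint_adjoint, adjoint_tens, adjoint_lam, ← star_eq_adjoint (1 : _ →L[ℂ] _),
    star_one, mul_assoc]

/-- The isometry `J_t : β_a δ_1 ↦ e(a, a t)`; `J_1 = Δ` on `ℓ²(Γ)`. -/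
noncomputable def Jt (hβ : Frame β) (t : Λ) : Ell2 Γ →L[ℂ] Ell2 (Γ × Γ) :=
  adjoint (Y hβ) ∘L tvl (β t (dl 1))

theorem Jt_apply (hβ : Frame β) (t : Λ) (v : Ell2 Γ) :
    Jt hβ t v = adjoint (Y hβ) (tv v (β t (dl 1))) := rfl

theorem Jt_beta (hβ : Frame β) (t a : Λ) : Jt hβ t (β a (dl 1)) = be β (a, a * t) := by
  rw [Jt_apply]
  exact adjY_be hβ a t

theorem Jt_lam (hβ : Frame β) (t : Λ) (g : Γ) (v : Ell2 Γ) :
    Jt hβ t (lam g v) = V hβ g (Jt hβ t v) := by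
  rw [Jt_apply, V_apply, Jt_apply, Y_adjY_apply, tens_tv]
  rfl

theorem V_Jt (hβ : Frame β) (t : Λ) (g : Γ) : V hβ g ∘L Jt hβ t = Jt hβ t ∘L lam g := by
  ext1 v
  exact (Jt_lam hβ t g v).symm

theorem inner_Jt (hβ : Frame β) (t t' : Λ) (u v : Ell2 Γ) :
    ⟪Jt hβ t u, Jt hβ t' v⟫_ℂ = ⟪u, v⟫_ℂ * ⟪β t (dl 1), β t' (dl 1)⟫_ℂ := by
  rw [Jt_apply, Jt_apply, adjoint_inner_left, Y_adjY_apply, inner_tv]

theorem inner_Jt_ne (hβ : Frame β) {t t' : Λ} (h : t ≠ t') (u v : Ell2 Γ) :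
    ⟪Jt hβ t u, Jt hβ t' v⟫_ℂ = 0 := by
  rw [inner_Jt, hβ.reg.orthonormal.2 h, mul_zero]

theorem norm_Jt (hβ : Frame β) (t : Λ) (v : Ell2 Γ) : ‖Jt hβ t v‖ = ‖v‖ := by
  have h : ‖adjoint (Y hβ) (tv v (β t (dl 1)))‖ = ‖tv v (β t (dl 1))‖ := by
    refine norm_of_adj_comp (V := adjoint (Y hβ)) ?_ _
    rw [adjoint_adjoint]
    exact Y_adjY hβ
  rw [Jt_apply, h, norm_tv, hβ.reg.norm_map, norm_dl, mul_one]

/-- Operators on `ℓ²(Γ × Γ)` are determined by their values on the ranges of the `J_t`. -/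
theorem ext_Jt (hβ : Frame β) {F : Type} [NormedAddCommGroup F] [InnerProductSpace ℂ F]
    {A B : Ell2 (Γ × Γ) →L[ℂ] F} (h : ∀ t v, A (Jt hβ t v) = B (Jt hβ t v)) : A = B := by
  refine ext_be hβ fun p => ?_
  have e : be β p = Jt hβ (p.1⁻¹ * p.2) (β p.1 (dl 1)) := by
    rw [Jt_beta, mul_inv_cancel_left]
  rw [e, h]

theorem Jt_one_dl (hβ : Frame β) : Jt hβ 1 (dl 1) = dl 1 := by
  have h := Jt_beta hβ 1 1
  rw [map_one, mul_one] at h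
  exact h.trans be_one

/-- `V_g` on the trace vector is `Δ(u_g)`, i.e. `J_1 δ_g`. -/
theorem V_dl_one (hβ : Frame β) (g : Γ) : V hβ g (dl 1) = Jt hβ 1 (dl g) := by
  have h := Jt_lam hβ 1 g (dl 1)
  rw [lam_dl, mul_one, Jt_one_dl] at h
  exact h.symm

theorem inner_V (hβ : Frame β) (g : Γ) (hg : g ≠ 1) :
    ⟪(dl 1 : Ell2 (Γ × Γ)), V hβ g (dl 1)⟫_ℂ = 0 := by
  rw [V_dl_one]
  conv_lhs => rw [← Jt_one_dl hβ]
  rw [inner_Jt, inner_dl, dl_ne (Ne.symm hg), zero_mul]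

/-! ### Commutation with the right regular representation of `Γ × Γ` -/

/-- `β_s ⊗ β_t` -/
noncomputable def BB (β : Λ →* (Ell2 Γ →L[ℂ] Ell2 Γ)) :
    Λ × Λ →* (Ell2 (Γ × Γ) →L[ℂ] Ell2 (Γ × Γ)) where
  toFun p := tens (β p.1) (β p.2)
  map_one' := by
    change tens (β 1) (β 1) = 1
    rw [map_one, tens_one]
  map_mul' p q := by
    change tens (β (p.1 * q.1)) (β (p.2 * q.2)) = _
    rw [map_mul, map_mul, tens_mul]

theorem BB_apply (p : Λ × Λ) : BB β p = tens (β p.1) (β p.2) := rfl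

theorem BB_dl (p : Λ × Λ) : BB β p (dl 1) = be β p := by
  rw [BB_apply]
  exact tens_dl _ _ 1 1

theorem beta_beta (s t : Λ) (v : Ell2 Γ) : β s (β t v) = β (s * t) v := by
  rw [map_mul]; rfl

theorem BB_be (p q : Λ × Λ) : BB β p (be β q) = be β (p * q) := by
  rw [BB_apply, be, tens_tv, beta_beta, beta_beta]
  rfl

theorem regRep_BB (hβ : Frame β) : RegRep (BB β) (dl 1) where
  adj p := by
    rw [BB_apply, BB_apply, adjoint_tens, hβ.reg.adj, hβ.reg.adj]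
    rfl
  norm_one := norm_dl 1
  inner_zero p hp := by
    rw [BB_dl, ← be_one (β := β)]
    exact (orthonormal_be hβ).2 (Ne.symm hp)
  total v hv := by
    refine ext_vec_be hβ fun p => ?_
    rw [inner_zero_right, ← BB_dl]
    exact hv p

/-- right multiplication by `β_c* ⊗ β_d*` -/
noncomputable def RR (hβ : Frame β) : Λ × Λ →* (Ell2 (Γ × Γ) →L[ℂ] Ell2 (Γ × Γ)) where
  toFun p := tens (Rr hβ p.1) (Rr hβ p.2)
  map_one' := by
    change tens (Rr hβ 1) (Rr hβ 1) = 1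
    rw [map_one, tens_one]
  map_mul' p q := by
    change tens (Rr hβ (p.1 * q.1)) (Rr hβ (p.2 * q.2)) = _
    rw [map_mul, map_mul, tens_mul]

theorem RR_apply (hβ : Frame β) (p : Λ × Λ) : RR hβ p = tens (Rr hβ p.1) (Rr hβ p.2) := rfl

theorem RR_be (hβ : Frame β) (p q : Λ × Λ) : RR hβ p (be β q) = be β (q * p⁻¹) := by
  rw [RR_apply, be, tens_tv, Rr_beta, Rr_beta]
  rfl

theorem RR_dl (hβ : Frame β) (p : Λ × Λ) : RR hβ p (dl 1) = be β p⁻¹ := by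
  rw [← be_one (β := β), RR_be, one_mul]

theorem regRep_RR (hβ : Frame β) : RegRep (RR hβ) (dl 1) where
  adj p := by
    rw [RR_apply, RR_apply, adjoint_tens, Rr_adj, Rr_adj]
    rfl
  norm_one := norm_dl 1
  inner_zero p hp := by
    rw [RR_dl, ← be_one (β := β)]
    exact (orthonormal_be hβ).2 (Ne.symm (inv_ne_one.mpr hp))
  total v hv := by
    refine ext_vec_be hβ fun p => ?_
    have h := hv p⁻¹
    rw [RR_dl, inv_inv] at h
    rw [h, inner_zero_right]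

theorem BB_RR (hβ : Frame β) (p q : Λ × Λ) : BB β p * RR hβ q = RR hβ q * BB β p := by
  rw [BB_apply, RR_apply, ← tens_mul, ← tens_mul, beta_Rr, beta_Rr]

theorem BB_rho (hβ : Frame β) (p : Λ × Λ) (x : Γ × Γ) : BB β p * rho x = rho x * BB β p := by
  obtain ⟨a, b⟩ := x
  rw [BB_apply, ← tens_rho, ← tens_mul, ← tens_mul, hβ.comm, hβ.comm]

/-- The operators commuting with the right multiplications by `β_c* ⊗ β_d*` commute with the
operators commuting with the `β_s ⊗ β_t`. -/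
theorem comm_RR (hβ : Frame β) {A B : Ell2 (Γ × Γ) →L[ℂ] Ell2 (Γ × Γ)} (hA : Cmm (RR hβ) A)
    (hB : Cmm (BB β) B) : A * B = B * A :=
  RegRep.commute (regRep_BB hβ) (regRep_RR hβ) (BB_RR hβ) hA hB

/-- The operators commuting with `ρ(Γ × Γ)` commute with the operators commuting with
`β_s ⊗ β_t`. -/
theorem comm_rho (hβ : Frame β) {A B : Ell2 (Γ × Γ) →L[ℂ] Ell2 (Γ × Γ)} (hA : Cmm rhoH A)
    (hB : Cmm (BB β) B) : A * B = B * A :=
  RegRep.commute (regRep_BB hβ) regRep_rho (BB_rho hβ) hA hB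

theorem Y_RR (hβ : Frame β) (c d : Λ) :
    Y hβ * RR hβ (c, d) = tens (Rr hβ c) (Rr hβ d * β c) * Y hβ := by
  refine ext_be hβ fun p => ?_
  obtain ⟨a, b⟩ := p
  rw [mul_ap, mul_ap, RR_be]
  have h1 : (a, b) * (c, d)⁻¹ = (a * c⁻¹, b * d⁻¹) := rfl
  have h2 : be β (a, a⁻¹ * b) = tv (β a (dl 1)) (β (a⁻¹ * b) (dl 1)) := rfl
  rw [h1, Y_be, Y_be, h2, tens_tv, Rr_beta, mul_ap, beta_beta, Rr_beta]
  have h3 : (a * c⁻¹)⁻¹ * (b * d⁻¹) = c * (a⁻¹ * b) * d⁻¹ := by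
    simp [mul_assoc]
  rw [h3]
  rfl

theorem V_cmm_RR (hβ : Frame β) (g : Γ) : Cmm (RR hβ) (V hβ g) := by
  rintro ⟨c, d⟩
  have h1 := Y_RR hβ c d
  have h2 : adjoint (Y hβ) * tens (Rr hβ c) (Rr hβ d * β c) = RR hβ (c, d) * adjoint (Y hβ) := by
    calc adjoint (Y hβ) * tens (Rr hβ c) (Rr hβ d * β c)
        = adjoint (Y hβ) * tens (Rr hβ c) (Rr hβ d * β c) * (Y hβ * adjoint (Y hβ)) := by
          rw [Y_adjY, mul_one]
      _ = adjoint (Y hβ) * (tens (Rr hβ c) (Rr hβ d * β c) * Y hβ) * adjoint (Y hβ) := by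
          simp only [mul_assoc]
      _ = adjoint (Y hβ) * Y hβ * RR hβ (c, d) * adjoint (Y hβ) := by
          rw [← h1]; simp only [mul_assoc]
      _ = _ := by rw [adjY_Y, one_mul]
  have h3 : tens (lam g) 1 * tens (Rr hβ c) (Rr hβ d * β c) =
      tens (Rr hβ c) (Rr hβ d * β c) * tens (lam g) 1 := by
    rw [← tens_mul, ← tens_mul, lam_Rr, one_mul, mul_one]
  rw [V_def]
  calc adjoint (Y hβ) * tens (lam g) 1 * Y hβ * RR hβ (c, d)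
      = adjoint (Y hβ) * (tens (lam g) 1 * tens (Rr hβ c) (Rr hβ d * β c)) * Y hβ := by
        rw [mul_assoc, h1]; simp only [mul_assoc]
    _ = (adjoint (Y hβ) * tens (Rr hβ c) (Rr hβ d * β c)) * tens (lam g) 1 * Y hβ := by
        rw [h3]; simp only [mul_assoc]
    _ = RR hβ (c, d) * (adjoint (Y hβ) * tens (lam g) 1 * Y hβ) := by
        rw [h2]; simp only [mul_assoc]

/-- `V_g` commutes with `ρ(Γ × Γ)`, i.e. `V_g` lies in `L(Γ × Γ)`. -/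
theorem V_rho (hβ : Frame β) (g : Γ) (x : Γ × Γ) : V hβ g * rho x = rho x * V hβ g :=
  comm_RR hβ (V_cmm_RR hβ g) fun p => (BB_rho hβ p x).symm

theorem V_cmm (hβ : Frame β) (g : Γ) : Cmm rhoH (V hβ g) := fun x => V_rho hβ g x

theorem V_rho_apply (hβ : Frame β) (g : Γ) (x : Γ × Γ) (v : Ell2 (Γ × Γ)) :
    V hβ g (rho x v) = rho x (V hβ g v) :=
  congrArg (fun T : Ell2 (Γ × Γ) →L[ℂ] Ell2 (Γ × Γ) => T v) (V_rho hβ g x)

theorem V_inv_apply (hβ : Frame β) (g : Γ) (v : Ell2 (Γ × Γ)) : V hβ g⁻¹ (V hβ g v) = v := by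
  rw [← mul_ap, ← map_mul, inv_mul_cancel, map_one]; rfl

theorem V_apply_inv (hβ : Frame β) (g : Γ) (v : Ell2 (Γ × Γ)) : V hβ g (V hβ g⁻¹ v) = v := by
  rw [← mul_ap, ← map_mul, mul_inv_cancel, map_one]; rfl

theorem V_inner_left (hβ : Frame β) (g : Γ) (u v : Ell2 (Γ × Γ)) :
    ⟪V hβ g u, v⟫_ℂ = ⟪u, V hβ g⁻¹ v⟫_ℂ := by rw [← V_adj, adjoint_inner_right]

theorem V_inner_right (hβ : Frame β) (g : Γ) (u v : Ell2 (Γ × Γ)) :
    ⟪u, V hβ g v⟫_ℂ = ⟪V hβ g⁻¹ u, v⟫_ℂ := by rw [← V_adj, adjoint_inner_left]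

theorem V_inner (hβ : Frame β) (g : Γ) (u v : Ell2 (Γ × Γ)) :
    ⟪V hβ g u, V hβ g v⟫_ℂ = ⟪u, v⟫_ℂ := by rw [V_inner_left, V_inv_apply]

theorem norm_V (hβ : Frame β) (g : Γ) (v : Ell2 (Γ × Γ)) : ‖V hβ g v‖ = ‖v‖ := by
  have h1 := V_inner hβ g v v
  rw [inner_self_eq_norm_sq_to_K, inner_self_eq_norm_sq_to_K] at h1
  have h2 : ‖V hβ g v‖ ^ 2 = ‖v‖ ^ 2 := by exact_mod_cast h1
  exact (pow_left_inj₀ (norm_nonneg _) (norm_nonneg _) two_ne_zero).mp h2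

/-! ### The swap of the legs -/

theorem sw_be (p : Λ × Λ) : sw (be β p) = be β (p.2, p.1) := sw_tv _ _

theorem sw_Jt (hβ : Frame β) (t : Λ) (v : Ell2 Γ) :
    sw (Jt hβ t v) = Jt hβ t⁻¹ (Rr hβ t⁻¹ v) := by
  have h : sw ∘L Jt hβ t = Jt hβ t⁻¹ ∘L Rr hβ t⁻¹ := by
    refine ext_b hβ fun a => ?_
    rw [comp_apply, comp_apply, Jt_beta, Rr_beta, Jt_beta, sw_be, inv_inv, mul_inv_cancel_right]
  exact congrArg (fun T : Ell2 Γ →L[ℂ] Ell2 (Γ × Γ) => T v) h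

theorem sw_V (hβ : Frame β) (g : Γ) : sw * V hβ g = V hβ g * sw := by
  refine ext_Jt hβ fun t v => ?_
  rw [mul_ap, mul_ap, ← Jt_lam, sw_Jt, sw_Jt, ← Jt_lam]
  congr 1
  exact congrArg (fun T : Ell2 Γ →L[ℂ] Ell2 Γ => T v) (lam_Rr hβ g t⁻¹).symm

end Vale.Agent.P092.H931
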