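import Vale.Agent.P092.H931.Delta
import Vale.Agent.P092.H885.Conj
import Vale.Agent.P092.H432.Frame

/-!
The right version `R_g = iv V_g iv` of the comultiplication: it commutes with the left
translations by `Γ × Γ`, it is an `ARep` (target group `Γ × Γ`, source group `Γ`, `ι = Unit`),
and `R_g = Z (ρ_g ⊗ 1) Z*` with a unitary `Z` commuting with the left translations of the second
leg.
-/

set_option linter.all false

open scoped InnerProductSpace
open Filter Topology ContinuousLinearMap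

namespace Vale.Agent.P092.H931

open Vale.Agent.P092.H160 Vale.Agent.P092.H885

variable {Γ Λ : Type} [Group Γ] [Group Λ] {β : Λ →* (Ell2 Γ →L[ℂ] Ell2 Γ)}

section iv

variable {G : Type} [Group G]

theorem iv_dl (x : G) : iv G (dl x) = dl x⁻¹ := by rw [iv, rei_dl]; rfl

theorem iv_dl_one : iv G (dl 1) = dl 1 := by rw [iv_dl, inv_one]

theorem iv_iv_apply (v : Ell2 G) : iv G (iv G v) = v :=
  congrArg (fun T : Ell2 G →L[ℂ] Ell2 G => T v) iv_iv

theorem norm_iv (v : Ell2 G) : ‖iv G v‖ = ‖v‖ := norm_rei _ _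

/-- conjugation of an operator by `iv` -/
noncomputable def ic (T : Ell2 G →L[ℂ] Ell2 G) : Ell2 G →L[ℂ] Ell2 G := iv G * T * iv G

theorem ic_apply (T : Ell2 G →L[ℂ] Ell2 G) (v : Ell2 G) : ic T v = iv G (T (iv G v)) := rfl

theorem ic_one : ic (1 : Ell2 G →L[ℂ] Ell2 G) = 1 := by rw [ic, mul_one, iv_iv]

theorem ic_mul (S T : Ell2 G →L[ℂ] Ell2 G) : ic (S * T) = ic S * ic T := by
  have : iv G * (S * T) * iv G = iv G * S * (iv G * iv G) * (T * iv G) := by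
    rw [iv_iv, mul_one]; simp only [mul_assoc]
  rw [ic, this, ic, ic]
  simp only [mul_assoc]

theorem ic_ic (T : Ell2 G →L[ℂ] Ell2 G) : ic (ic T) = T := by
  have : iv G * (iv G * T * iv G) * iv G = (iv G * iv G) * T * (iv G * iv G) := by
    simp only [mul_assoc]
  rw [ic, ic, this, iv_iv, one_mul, mul_one]

theorem ic_adj (T : Ell2 G →L[ℂ] Ell2 G) : adjoint (ic T) = ic (adjoint T) := by
  rw [ic, ic, ← star_eq_adjoint, star_mul, star_mul, star_eq_adjoint, star_eq_adjoint,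
    adjoint_iv, mul_assoc]

theorem ic_rho (x : G) : ic (rho x) = lam x := iv_rho_iv x

theorem ic_lam (x : G) : ic (lam x) = rho x := by rw [← ic_rho, ic_ic]

end iv

/-! ### `R_g = iv V_g iv` on `ℓ²(Γ × Γ)` -/

/-- `R_g = iv V_g iv` -/
noncomputable def R0 (hβ : Frame β) : Γ →* (Ell2 (Γ × Γ) →L[ℂ] Ell2 (Γ × Γ)) where
  toFun g := ic (V hβ g)
  map_one' := by rw [map_one, ic_one]
  map_mul' g h := by rw [map_mul, ic_mul]

theorem R0_apply (hβ : Frame β) (g : Γ) : R0 hβ g = ic (V hβ g) := rfl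

theorem R0_adj (hβ : Frame β) (g : Γ) : adjoint (R0 hβ g) = R0 hβ g⁻¹ := by
  rw [R0_apply, ic_adj, V_adj]; rfl

theorem R0_lam (hβ : Frame β) (g : Γ) (x : Γ × Γ) : R0 hβ g * lam x = lam x * R0 hβ g := by
  rw [R0_apply, ← ic_rho, ← ic_mul, ← ic_mul, V_rho]

theorem R0_dl_one (hβ : Frame β) (g : Γ) :
    R0 hβ g (dl 1) = iv (Γ × Γ) (V hβ g (dl 1)) := by
  rw [R0_apply, ic_apply, iv_dl_one]

theorem R0_inner (hβ : Frame β) (g : Γ) (hg : g ≠ 1) :
    ⟪(dl 1 : Ell2 (Γ × Γ)), R0 hβ g (dl 1)⟫_ℂ = 0 := by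
  rw [R0_dl_one, inner_dl, iv_apply, inv_one, ← inner_dl, inner_V hβ g hg]

theorem norm_R0 (hβ : Frame β) (g : Γ) (v : Ell2 (Γ × Γ)) : ‖R0 hβ g v‖ = ‖v‖ := by
  rw [R0_apply, ic_apply, norm_iv, norm_V, norm_iv]

/-- the coarse unitary -/
noncomputable def Z (hβ : Frame β) : Ell2 (Γ × Γ) →L[ℂ] Ell2 (Γ × Γ) := ic (adjoint (Y hβ))

theorem Z_adj (hβ : Frame β) : adjoint (Z hβ) = ic (Y hβ) := by
  rw [Z, ic_adj, adjoint_adjoint]

theorem adjZ_Z (hβ : Frame β) : adjoint (Z hβ) * Z hβ = 1 := by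
  rw [Z_adj, Z, ← ic_mul, Y_adjY, ic_one]

theorem Z_adjZ (hβ : Frame β) : Z hβ * adjoint (Z hβ) = 1 := by
  rw [Z_adj, Z, ← ic_mul, adjY_Y, ic_one]

theorem adjY_rho (hβ : Frame β) (x : Γ) :
    adjoint (Y hβ) * rho ((1 : Γ), x) = rho ((1 : Γ), x) * adjoint (Y hβ) := by
  have h := Y_rho hβ x
  calc adjoint (Y hβ) * rho ((1 : Γ), x)
      = adjoint (Y hβ) * rho ((1 : Γ), x) * (Y hβ * adjoint (Y hβ)) := by rw [Y_adjY, mul_one]
    _ = adjoint (Y hβ) * (rho ((1 : Γ), x) * Y hβ) * adjoint (Y hβ) := by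
        simp only [mul_assoc]
    _ = adjoint (Y hβ) * Y hβ * rho ((1 : Γ), x) * adjoint (Y hβ) := by
        rw [← h]; simp only [mul_assoc]
    _ = _ := by rw [adjY_Y, one_mul]

/-- `Z` commutes with the left translations of the second leg. -/
theorem Z_lam (hβ : Frame β) (x : Γ) :
    Z hβ * lam ((1 : Γ), x) = lam ((1 : Γ), x) * Z hβ := by
  rw [Z, ← ic_rho, ← ic_mul, ← ic_mul, adjY_rho]

theorem ic_tens_lam (g : Γ) :
    ic (tens (lam g) (1 : Ell2 Γ →L[ℂ] Ell2 Γ)) = rho (g, (1 : Γ)) := by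
  have h : tens (lam g) (1 : Ell2 Γ →L[ℂ] Ell2 Γ) = lam (g, (1 : Γ)) := by
    apply op_ext
    rintro ⟨x, y⟩
    rw [tens_dl, lam_dl, lam_dl, one_apply_eq_self, ← dl_prod]
    change _ = dl (g * x, 1 * y)
    rw [one_mul]
  rw [h, ic_lam]

/-- `R_g = Z (ρ_g ⊗ 1) Z*` -/
theorem R0_eq (hβ : Frame β) (g : Γ) :
    R0 hβ g = Z hβ * rho (g, (1 : Γ)) * adjoint (Z hβ) := by
  rw [R0_apply, V_def, ic_mul, ic_mul, ic_tens_lam, Z_adj, Z]

/-! ### The same on `ℓ²((Γ × Γ) × Unit)` -/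

section am

variable {X : Type}

/-- transport of operators to `ℓ²(X × Unit)` -/
noncomputable def am (T : Ell2 X →L[ℂ] Ell2 X) :
    Ell2 (X × Unit) →L[ℂ] Ell2 (X × Unit) :=
  rei (Equiv.prodPUnit X).symm ∘L T ∘L rei (Equiv.prodPUnit X)

theorem am_apply (T : Ell2 X →L[ℂ] Ell2 X) (v : Ell2 (X × Unit)) :
    am T v = rei (Equiv.prodPUnit X).symm (T (rei (Equiv.prodPUnit X) v)) := rfl

theorem am_apply_apply (T : Ell2 X →L[ℂ] Ell2 X) (v : Ell2 (X × Unit)) (x : X) (i : Unit) :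
    am T v (x, i) = T (rei (Equiv.prodPUnit X) v) x := rfl

theorem rei_unit_symm (v : Ell2 X) :
    rei (Equiv.prodPUnit X) (rei (Equiv.prodPUnit X).symm v) = v := rfl

theorem am_mul (S T : Ell2 X →L[ℂ] Ell2 X) : am (S * T) = am S * am T := rfl

theorem am_one : am (1 : Ell2 X →L[ℂ] Ell2 X) = 1 := rfl

theorem am_adj (T : Ell2 X →L[ℂ] Ell2 X) : adjoint (am T) = am (adjoint T) := by
  rw [am, adjoint_comp, adjoint_comp, adjoint_rei, adjoint_rei, Equiv.symm_symm]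
  rfl

theorem am_dl (T : Ell2 X →L[ℂ] Ell2 X) (x : X) (i : Unit) :
    am T (dl (x, i)) = rei (Equiv.prodPUnit X).symm (T (dl x)) := by
  rw [am_apply, rei_dl]
  rfl

theorem inner_am_dl (T : Ell2 X →L[ℂ] Ell2 X) (x y : X) (i j : Unit) :
    ⟪(dl (x, i) : Ell2 (X × Unit)), am T (dl (y, j))⟫_ℂ = ⟪(dl x : Ell2 X), T (dl y)⟫_ℂ := by
  rw [am_dl, inner_dl, inner_dl]
  rfl

theorem am_lam {G : Type} [Group G] (s : G) :
    am (lam s) = (H432.lx s : Ell2 (G × Unit) →L[ℂ] Ell2 (G × Unit)) := rfl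

end am

/-- The engine's representation: `R_g = iv V_g iv` on `ℓ²((Γ × Γ) × Unit)`. -/
noncomputable def RV (hβ : Frame β) (g : Γ) :
    Ell2 ((Γ × Γ) × Unit) →L[ℂ] Ell2 ((Γ × Γ) × Unit) := am (R0 hβ g)

/-- the coarse unitary on `ℓ²((Γ × Γ) × Unit)` -/
noncomputable def ZV (hβ : Frame β) :
    Ell2 ((Γ × Γ) × Unit) →L[ℂ] Ell2 ((Γ × Γ) × Unit) := am (Z hβ)

theorem arep_RV (hβ : Frame β) : H432.ARep (ι := Unit) 1 (RV hβ) where
  ra v := by
    intro x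
    rw [H432.lxH_apply, ← am_lam, RV, ← am_mul, ← am_mul, R0_lam]
  mul v w := by rw [RV, map_mul, am_mul]; rfl
  adj v := by rw [RV, am_adj, R0_adj]; rfl
  pos := one_pos
  tr_one := by
    rw [Finset.univ_unique, Finset.sum_singleton, H432.ep, RV, inner_am_dl, map_one,
      one_apply_eq_self, inner_dl, dl_self]
    simp
  tr_zero v hv := by
    rw [Finset.univ_unique, Finset.sum_singleton, H432.ep, RV, inner_am_dl, R0_inner hβ v hv]

theorem RV_one (hβ : Frame β) : RV hβ 1 = 1 := by rw [RV, map_one, am_one]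

theorem adjZV_ZV (hβ : Frame β) : adjoint (ZV hβ) * ZV hβ = 1 := by
  rw [ZV, am_adj, ← am_mul, adjZ_Z, am_one]

theorem ZV_adjZV (hβ : Frame β) : ZV hβ * adjoint (ZV hβ) = 1 := by
  rw [ZV, am_adj, ← am_mul, Z_adjZ, am_one]

theorem ZV_lx (hβ : Frame β) (q : Γ) :
    ZV hβ * H432.lx ((1 : Γ), q) = H432.lx ((1 : Γ), q) * ZV hβ := by
  rw [ZV, ← am_lam, ← am_mul, ← am_mul, Z_lam]

theorem RV_eq (hβ : Frame β) (g : Γ) :
    RV hβ g = ZV hβ * am (rho (g, (1 : Γ))) * adjoint (ZV hβ) := by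
  rw [RV, R0_eq, am_mul, am_mul, ZV, am_adj]

/-- mass of `R_g` on the cyclic vector, in terms of `V_g`. -/
theorem RV_ep (hβ : Frame β) (g : Γ) (x : Γ × Γ) (i j : Unit) :
    (RV hβ g (H432.ep i) : Ell2 ((Γ × Γ) × Unit)) (x, j) = V hβ g (dl 1) x⁻¹ := by
  rw [RV, H432.ep, am_dl]
  change (R0 hβ g (dl 1)) x = _
  rw [R0_dl_one, iv_apply]

end Vale.Agent.P092.H931
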